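import Vale.Agent.P011L.IF

/-! The split groups of type `D₄` and `E₆` have no characters of order two or three. -/

namespace Vale.Agent.P011LC

open Vale.Agent.P011L

/-- The group has no nontrivial homomorphism to a commutative group with values of order
dividing six. -/
def NoCh (G : Type) [Group G] : Prop :=
  ∀ (A : Type) [CommGroup A] (χ : G →* A), (∀ g, χ g ^ 6 = 1) → ∀ g, χ g = 1

/-- The case `D₄`. -/
def NCD : Prop := ∀ (K : Type) [Field K] [IsAlgClosed K] [CharZero K], NoCh (SD K)

/-- The case `E₆`. -/
def NCE : Prop := ∀ (K : Type) [Field K] [IsAlgClosed K] [CharZero K], NoCh (SE K)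

end Vale.Agent.P011LC
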