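import Vale.Agent.P011LC.Rel
import Mathlib.FieldTheory.IsAlgClosed.Basic

/-! Triality: the related triples attached to elements of norm one, reflections. -/

set_option linter.all false

namespace Vale.Agent.P011LC

open Vale.Agent.P011 Vale.Agent.P011.MPQ Vale.Agent.P011.D4 Vale.Agent.P011.D4.Oct
open Vale.Agent.P011.E6 Vale.Agent.P011.E6.Alb Vale.Agent.P011.D4.H24

variable {F : Type} [Field F] {a b c : Fˣ}

/-- Left multiplication by an element of norm one. -/
def lm (u : Oct a b c) (hu : Oct.norm u = 1) : OE a b c where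
  toFun x := u * x
  invFun x := star u * x
  map_add' := mul_add u
  map_smul' t x := mul_smul_oct t u x
  left_inv x := by simp only [star_mul_mul, hu, one_smul]
  right_inv x := by simp only [mul_star_mul, hu, one_smul]

/-- Right multiplication by an element of norm one. -/
def rm (u : Oct a b c) (hu : Oct.norm u = 1) : OE a b c where
  toFun x := x * u
  invFun x := x * star u
  map_add' x y := add_mul x y u
  map_smul' t x := smul_mul_oct t x u
  left_inv x := by simp only [mul_mul_star, hu, one_smul]
  right_inv x := by simp only [mul_star_mul', hu, one_smul]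

@[simp] theorem lm_apply (u : Oct a b c) (hu) (x) : lm u hu x = u * x := rfl

@[simp] theorem rm_apply (u : Oct a b c) (hu) (x) : rm u hu x = x * u := rfl

theorem iso_lm (u : Oct a b c) (hu) : Iso (lm u hu) := fun x => by
  rw [lm_apply, Oct.norm_mul, hu, one_mul]

theorem iso_rm (u : Oct a b c) (hu) : Iso (rm u hu) := fun x => by
  rw [rm_apply, Oct.norm_mul, hu, mul_one]

/-- The map `x ↦ u x u`. -/
def bm (u : Oct a b c) (hu : Oct.norm u = 1) : OE a b c := rm u hu * lm u hu

@[simp] theorem bm_apply (u : Oct a b c) (hu) (x) : bm u hu x = u * x * u := rfl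

theorem iso_bm (u : Oct a b c) (hu) : Iso (bm u hu) := (iso_rm u hu).mul (iso_lm u hu)

theorem norm_star_one {u : Oct a b c} (hu : Oct.norm u = 1) : Oct.norm (star u) = 1 := by
  rw [Oct.norm_star, hu]

/-- The map `x ↦ -x'`. -/
def ns (a b c : Fˣ) : OE a b c where
  toFun x := -star x
  invFun x := -star x
  map_add' x y := by rw [star_add, neg_add]
  map_smul' t x := by rw [star_smul_oct, RingHom.id_apply, smul_neg]
  left_inv x := by simp only [star_neg, star_star, neg_neg]
  right_inv x := by simp only [star_neg, star_star, neg_neg]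

@[simp] theorem ns_apply (x : Oct a b c) : ns a b c x = -star x := rfl

theorem ns_ns : ns a b c * ns a b c = 1 := by
  ext1 x
  show -star (-star x) = x
  rw [star_neg, star_star, neg_neg]

theorem iso_ns : Iso (ns a b c) := fun x => by rw [ns_apply, Oct.norm_neg, Oct.norm_star]

theorem ns_bm (u : Oct a b c) (hu) :
    ns a b c * bm u hu * ns a b c = bm (star u) (norm_star_one hu) := by
  ext1 x
  show -star (u * -star x * u) = star u * x * star u
  rw [mul_neg, neg_mul, star_neg, neg_neg, star_mul, star_mul, star_star, flex]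

theorem bm_ns (u : Oct a b c) (hu) (x : Oct a b c) :
    (bm u hu * ns a b c) x = x - bil x u • u := by
  show u * -star x * u = _
  rw [mul_neg, neg_mul, flex, mul_mul_eq, star_star, hu, one_smul, neg_sub, bil_comm]

variable [NeZero (2 : F)]

theorem rel_u (u : Oct a b c) (hu : Oct.norm u = 1) :
    Rel (lm u hu) (rm u hu) (bm (star u) (norm_star_one hu)) :=
  rel_of_m3 (iso_lm u hu) (iso_rm u hu) (iso_bm _ _) fun x y => by
    rw [lm_apply, rm_apply, bm_apply, moufang, star_mul (u * (x * y)), star_mul u, flex]

/-- The group generated by the maps `x ↦ u x u`. -/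
def KB (a b c : Fˣ) : Subgroup (OE a b c) :=
  Subgroup.closure {t | ∃ u hu, t = bm u hu}

theorem bm_mem (u : Oct a b c) (hu) : bm u hu ∈ KB a b c := Subgroup.subset_closure ⟨u, hu, rfl⟩

theorem ns_conj {t : OE a b c} (ht : t ∈ KB a b c) : ns a b c * t * ns a b c ∈ KB a b c := by
  induction ht using Subgroup.closure_induction with
  | mem t ht =>
    obtain ⟨u, hu, rfl⟩ := ht
    rw [ns_bm]
    exact bm_mem _ _
  | one => rw [mul_one, ns_ns]; exact one_mem _
  | mul s t _ _ hs ht =>
    have : ns a b c * (s * t) * ns a b c = (ns a b c * s * ns a b c) * (ns a b c * t * ns a b c) := by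
      rw [show (ns a b c * s * ns a b c) * (ns a b c * t * ns a b c) =
        ns a b c * s * (ns a b c * ns a b c) * t * ns a b c by group, ns_ns]
      group
    rw [this]
    exact mul_mem hs ht
  | inv t _ ht =>
    have h1 : (ns a b c)⁻¹ = ns a b c := inv_eq_of_mul_eq_one_right ns_ns
    have : ns a b c * t⁻¹ * ns a b c = (ns a b c * t * ns a b c)⁻¹ := by
      rw [mul_inv_rev, mul_inv_rev, h1, mul_assoc]
    rw [this]
    exact inv_mem ht

/-- The group generated by the reflections. -/
def KO (t : OE a b c) : Prop := t ∈ KB a b c ∨ t * ns a b c ∈ KB a b c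

theorem KO.refl {t : OE a b c} (u : Oct a b c) (hu) (h : KO (bm u hu * ns a b c * t)) : KO t := by
  have h1 : (ns a b c)⁻¹ = ns a b c := inv_eq_of_mul_eq_one_right ns_ns
  rcases h with h | h
  · right
    have := ns_conj (mul_mem (inv_mem (bm_mem u hu)) h)
    rwa [show ns a b c * ((bm u hu)⁻¹ * (bm u hu * ns a b c * t)) * ns a b c =
      (ns a b c * ns a b c) * t * ns a b c by group, ns_ns, one_mul] at this
  · left
    have := ns_conj (mul_mem (inv_mem (bm_mem u hu)) h)
    rwa [show ns a b c * ((bm u hu)⁻¹ * (bm u hu * ns a b c * t * ns a b c)) * ns a b c =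
      (ns a b c * ns a b c) * t * (ns a b c * ns a b c) by group, ns_ns, one_mul, mul_one] at this

theorem norm_ob (m : Fin 8) : Oct.norm (ob m : Oct a b c) ≠ 0 := by
  have ha := a.ne_zero
  have hb := b.ne_zero
  have hc := c.ne_zero
  fin_cases m <;> simp [ob, Oct.norm, nrd, ha, hb, hc]

theorem bil_ob {m n : Fin 8} (h : m ≠ n) : bil (ob m : Oct a b c) (ob n) = 0 := by
  fin_cases m <;> fin_cases n <;> first | exact absurd rfl h | simp [ob, bil_eq]

variable [IsAlgClosed F]

/-- The reflection in an anisotropic vector. -/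
theorem exists_refl {e : Oct a b c} (he : Oct.norm e ≠ 0) :
    ∃ ρ : OE a b c, Iso ρ ∧ (∀ t, KO (ρ * t) → KO t) ∧
      ∀ x : Oct a b c, ρ x = x - (bil x e / Oct.norm e) • e := by
  obtain ⟨r, hr⟩ := IsAlgClosed.exists_eq_mul_self (Oct.norm e)⁻¹
  have hu : Oct.norm (r • e) = 1 := by rw [Oct.norm_smul, sq, ← hr, inv_mul_cancel₀ he]
  refine ⟨bm _ hu * ns a b c, (iso_bm _ hu).mul iso_ns, fun t => KO.refl _ hu, fun x => ?_⟩
  rw [bm_ns, bil_smul_right, smul_smul, div_eq_mul_inv, hr]
  congr 2
  ring

theorem ko_aux (n : ℕ) : ∀ t : OE a b c, Iso t → (∀ m : Fin 8, n ≤ m.1 → t (ob m) = ob m) →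
    KO t := by
  induction n with
  | zero =>
    intro t _ h
    left
    have : t = 1 := by
      ext1 x
      rw [← sum_oc x, map_sum]
      simp only [map_smul, h _ (Nat.zero_le _), sum_oc]
      rfl
    rw [this]
    exact one_mem _
  | succ n ih =>
    intro t ht h
    by_cases hn : n < 8
    swap
    · exact ih t ht fun m hm => absurd (lt_of_le_of_lt hm m.2) hn
    set x : Oct a b c := ob ⟨n, hn⟩ with hx
    have hx0 : Oct.norm x ≠ 0 := norm_ob _
    have o1 : ∀ m : Fin 8, n + 1 ≤ m.1 → bil (ob m) x = 0 := fun m hm =>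
      bil_ob fun e => by rw [e] at hm; simp at hm
    have o2 : ∀ m : Fin 8, n + 1 ≤ m.1 → bil (ob m) (t x) = 0 := fun m hm => by
      rw [← h m hm, ht.bil, o1 m hm]
    have cs : ∀ m : Fin 8, n ≤ m.1 → ob m = x ∨ n + 1 ≤ m.1 := fun m hm => by
      rcases hm.eq_or_lt with e | e
      · left
        rw [hx]
        congr 1
        exact Fin.ext e.symm
      · exact Or.inr e
    by_cases h1 : Oct.norm (t x - x) = 0
    · have h2 : Oct.norm (t x + x) ≠ 0 := fun h2 => by
        rw [Oct.norm_sub, ht] at h1
        rw [Oct.norm_add, ht] at h2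
        have h4 : (2 : F) * 2 * Oct.norm x = 0 := by linear_combination h1 + h2
        simp [NeZero.ne (2 : F), hx0] at h4
      obtain ⟨u, hu, ku, hr⟩ := exists_refl h2
      obtain ⟨v, hv, kv, hs⟩ := exists_refl hx0
      refine ku t (kv _ (ih _ ?_ fun m hm => ?_))
      · exact hv.mul (hu.mul ht)
      · rw [LinearEquiv.mul_apply, LinearEquiv.mul_apply]
        rcases cs m hm with e | e
        · have e1 : bil (t x) (t x + x) / Oct.norm (t x + x) = 1 := by
            rw [div_eq_one_iff_eq h2, bil_add_right, bil_self, Oct.norm_add, ht]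
            ring
          have e2 : bil (-x) x / Oct.norm x = -2 := by
            rw [div_eq_iff hx0, bil_neg_left, bil_self]
            ring
          rw [e, hr, e1, one_smul, sub_add_cancel_left, hs, e2]
          module
        · rw [h m e, hr, bil_add_right, o1 m e, o2 m e, add_zero, zero_div, zero_smul, sub_zero,
            hs, o1 m e, zero_div, zero_smul, sub_zero]
    · obtain ⟨u, hu, ku, hr⟩ := exists_refl h1
      refine ku t (ih _ (hu.mul ht) fun m hm => ?_)
      rw [LinearEquiv.mul_apply]
      rcases cs m hm with e | e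
      · have e1 : bil (t x) (t x - x) / Oct.norm (t x - x) = 1 := by
          rw [div_eq_one_iff_eq h1, bil_sub_right, bil_self, Oct.norm_sub, ht]
          ring
        rw [e, hr, e1, one_smul, sub_sub_cancel]
      · rw [h m e, hr, bil_sub_right, o1 m e, o2 m e, sub_zero, zero_div, zero_smul, sub_zero]

/-- Every isometry is a product of reflections. -/
theorem ko_of_iso {t : OE a b c} (ht : Iso t) : KO t :=
  ko_aux 8 t ht fun m hm => absurd m.2 (not_lt.2 hm)

end Vale.Agent.P011LC
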