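import Vale.Agent.P011LC.Gen
import Vale.Agent.P011LG.Slide

/-! The stabiliser of the three diagonal idempotents is the group of related triples. -/

set_option linter.all false

namespace Vale.Agent.P011LC

open Vale.Agent.P011 Vale.Agent.P011.MPQ Vale.Agent.P011.D4 Vale.Agent.P011.D4.Oct
open Vale.Agent.P011.E6 Vale.Agent.P011.E6.Alb Vale.Agent.P011LG

variable {F : Type} [Field F] {a b c : Fˣ}

/-- The map which acts on the three entries off the diagonal. -/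
def dgm (t1 t2 t3 : OE a b c) : Alb a b c ≃ₗ[F] Alb a b c where
  toFun x := ⟨x.d1, x.d2, x.d3, t1 x.x1, t2 x.x2, t3 x.x3⟩
  invFun x := ⟨x.d1, x.d2, x.d3, t1.symm x.x1, t2.symm x.x2, t3.symm x.x3⟩
  map_add' x y := Alb.ext rfl rfl rfl (map_add t1 _ _) (map_add t2 _ _) (map_add t3 _ _)
  map_smul' s x := Alb.ext rfl rfl rfl (map_smul t1 _ _) (map_smul t2 _ _) (map_smul t3 _ _)
  left_inv x := Alb.ext rfl rfl rfl (t1.symm_apply_apply _) (t2.symm_apply_apply _)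
    (t3.symm_apply_apply _)
  right_inv x := Alb.ext rfl rfl rfl (t1.apply_symm_apply _) (t2.apply_symm_apply _)
    (t3.apply_symm_apply _)

theorem dgm_apply (t1 t2 t3 : OE a b c) (x : Alb a b c) :
    dgm t1 t2 t3 x = ⟨x.d1, x.d2, x.d3, t1 x.x1, t2 x.x2, t3 x.x3⟩ := rfl

theorem dgm_mul (s1 s2 s3 t1 t2 t3 : OE a b c) :
    dgm (s1 * t1) (s2 * t2) (s3 * t3) = dgm s1 s2 s3 * dgm t1 t2 t3 := rfl

theorem dgm_one : dgm (1 : OE a b c) 1 1 = 1 := rfl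

theorem dgm_inv (t1 t2 t3 : OE a b c) : dgm t1⁻¹ t2⁻¹ t3⁻¹ = (dgm t1 t2 t3)⁻¹ := rfl

theorem dgm_inj {s1 s2 s3 t1 t2 t3 : OE a b c} (h : dgm s1 s2 s3 = dgm t1 t2 t3) :
    s1 = t1 ∧ s2 = t2 ∧ s3 = t3 := by
  have e : ∀ x, dgm s1 s2 s3 x = dgm t1 t2 t3 x := fun x => by rw [h]
  exact ⟨LinearEquiv.ext fun u => congrArg Alb.x1 (e ⟨0, 0, 0, u, 0, 0⟩),
    LinearEquiv.ext fun u => congrArg Alb.x2 (e ⟨0, 0, 0, 0, u, 0⟩),
    LinearEquiv.ext fun u => congrArg Alb.x3 (e ⟨0, 0, 0, 0, 0, u⟩)⟩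

/-- The stabiliser of the diagonal idempotents. -/
def Spin (a b c : Fˣ) : Subgroup (Alb a b c ≃ₗ[F] Alb a b c) where
  carrier := {f | f ∈ Inv a b c ∧ f e1 = e1 ∧ f e2 = e2 ∧ f e3 = e3}
  mul_mem' := fun {f g} hf hg => ⟨mul_mem hf.1 hg.1,
    by rw [LinearEquiv.mul_apply, hg.2.1, hf.2.1], by rw [LinearEquiv.mul_apply, hg.2.2.1, hf.2.2.1],
    by rw [LinearEquiv.mul_apply, hg.2.2.2, hf.2.2.2]⟩
  one_mem' := ⟨one_mem _, rfl, rfl, rfl⟩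
  inv_mem' := fun {f} hf => ⟨inv_mem hf.1, f.symm_apply_eq.2 hf.2.1.symm,
    f.symm_apply_eq.2 hf.2.2.1.symm, f.symm_apply_eq.2 hf.2.2.2.symm⟩

theorem mem_Spin {f : Alb a b c ≃ₗ[F] Alb a b c} :
    f ∈ Spin a b c ↔ f ∈ Inv a b c ∧ f e1 = e1 ∧ f e2 = e2 ∧ f e3 = e3 := Iff.rfl

theorem dgm_mem {t1 t2 t3 : OE a b c} (h : Rel t1 t2 t3) : dgm t1 t2 t3 ∈ Spin a b c := by
  refine ⟨fun x => ?_, ?_, ?_, ?_⟩
  · simp only [dgm_apply, cub, h.i1 _, h.i2 _, h.i3 _, h.rel]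
  all_goals exact Alb.ext rfl rfl rfl (map_zero t1) (map_zero t2) (map_zero t3)

variable [NeZero (2 : F)]

theorem Spin_d {f : Alb a b c ≃ₗ[F] Alb a b c} (hf : f ∈ Spin a b c) (x : Alb a b c) :
    (f x).d1 = x.d1 ∧ (f x).d2 = x.d2 ∧ (f x).d3 = x.d3 := by
  obtain ⟨h, h1, h2, h3⟩ := hf
  have k1 := tf_cross_inv h e2 e3 x
  have k2 := tf_cross_inv h e3 e1 x
  have k3 := tf_cross_inv h e1 e2 x
  rw [h2, h3] at k1
  rw [h3, h1] at k2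
  rw [h1, h2] at k3
  simp [tf, cross, e1, e2, e3] at k1 k2 k3
  exact ⟨k1, k2, k3⟩

theorem Spin_bil {f : Alb a b c ≃ₗ[F] Alb a b c} (hf : f ∈ Spin a b c) (x y : Alb a b c) :
    bil (f x).x1 (f y).x1 = bil x.x1 y.x1 ∧ bil (f x).x2 (f y).x2 = bil x.x2 y.x2 ∧
      bil (f x).x3 (f y).x3 = bil x.x3 y.x3 := by
  obtain ⟨p1, p2, p3⟩ := Spin_d hf x
  obtain ⟨q1, q2, q3⟩ := Spin_d hf y
  obtain ⟨h, h1, h2, h3⟩ := hf
  have k1 := tf_cross_inv h x y e1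
  have k2 := tf_cross_inv h x y e2
  have k3 := tf_cross_inv h x y e3
  rw [h1] at k1
  rw [h2] at k2
  rw [h3] at k3
  simp [tf, cross, e1, e2, e3, p1, p2, p3, q1, q2, q3] at k1 k2 k3
  exact ⟨k1, k2, k3⟩

theorem iso_of_bil {t : Oct a b c → Oct a b c} (h : ∀ x y, bil (t x) (t y) = bil x y) : Iso t :=
  fun x => mul_left_cancel₀ (NeZero.ne (2 : F)) (by rw [← bil_self, ← bil_self, h])

/-- The action on a quotient with a nondegenerate form. -/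
theorem exists_comp {f : Alb a b c ≃ₗ[F] Alb a b c} (p : Alb a b c →ₗ[F] Oct a b c)
    (j : Oct a b c →ₗ[F] Alb a b c) (hj : ∀ u, p (j u) = u)
    (h : ∀ x y, bil (p (f x)) (p (f y)) = bil (p x) (p y)) :
    ∃ t : OE a b c, Iso t ∧ ∀ x, p (f x) = t (p x) := by
  have h1 : ∀ x, p (f x) = p (f (j (p x))) := fun x => eq_of_bil fun z => by
    obtain ⟨y, hy⟩ := f.surjective (j z)
    rw [← hj z, ← hy, h, h, hj]
  have h2 : ∀ u, p (f (j (p (f.symm (j u))))) = u := fun u => by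
    rw [← h1, f.apply_symm_apply, hj]
  have h3 : ∀ u, p (f.symm (j (p (f (j u))))) = u := fun u => eq_of_bil fun z => by
    rw [← hj z, ← h, f.apply_symm_apply, hj, h, hj, hj]
  refine ⟨LinearEquiv.ofLinear (p ∘ₗ f.toLinearMap ∘ₗ j) (p ∘ₗ f.symm.toLinearMap ∘ₗ j)
    (LinearMap.ext h2) (LinearMap.ext h3), iso_of_bil fun x y => ?_, h1⟩
  exact (h (j x) (j y)).trans (by rw [hj, hj])

theorem exists_rel {f : Alb a b c ≃ₗ[F] Alb a b c} (hf : f ∈ Spin a b c) :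
    ∃ t1 t2 t3 : OE a b c, Rel t1 t2 t3 ∧ f = dgm t1 t2 t3 := by
  obtain ⟨t1, i1, h1⟩ := exists_comp (f := f) ⟨⟨Alb.x1, fun _ _ => rfl⟩, fun _ _ => rfl⟩
    ⟨⟨fun u => ⟨0, 0, 0, u, 0, 0⟩, fun _ _ => by ext1 <;> simp⟩, fun _ _ => by ext1 <;> simp⟩
    (fun _ => rfl) fun x y => (Spin_bil hf x y).1
  obtain ⟨t2, i2, h2⟩ := exists_comp (f := f) ⟨⟨Alb.x2, fun _ _ => rfl⟩, fun _ _ => rfl⟩
    ⟨⟨fun u => ⟨0, 0, 0, 0, u, 0⟩, fun _ _ => by ext1 <;> simp⟩, fun _ _ => by ext1 <;> simp⟩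
    (fun _ => rfl) fun x y => (Spin_bil hf x y).2.1
  obtain ⟨t3, i3, h3⟩ := exists_comp (f := f) ⟨⟨Alb.x3, fun _ _ => rfl⟩, fun _ _ => rfl⟩
    ⟨⟨fun u => ⟨0, 0, 0, 0, 0, u⟩, fun _ _ => by ext1 <;> simp⟩, fun _ _ => by ext1 <;> simp⟩
    (fun _ => rfl) fun x y => (Spin_bil hf x y).2.2
  have e : f = dgm t1 t2 t3 := LinearEquiv.ext fun x =>
    Alb.ext (Spin_d hf x).1 (Spin_d hf x).2.1 (Spin_d hf x).2.2 (h1 x) (h2 x) (h3 x)
  refine ⟨t1, t2, t3, ⟨i1, i2, i3, fun x y z => ?_⟩, e⟩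
  have := hf.1 ⟨0, 0, 0, x, y, z⟩
  rw [e] at this
  simpa [dgm_apply, cub] using this

theorem mem_Spin_iff {f : Alb a b c ≃ₗ[F] Alb a b c} :
    f ∈ Spin a b c ↔ ∃ t1 t2 t3 : OE a b c, Rel t1 t2 t3 ∧ f = dgm t1 t2 t3 :=
  ⟨exists_rel, fun ⟨_, _, _, h, e⟩ => e ▸ dgm_mem h⟩

/-- The generators. -/
def Gu (u : Oct a b c) (hu : Oct.norm u = 1) : Alb a b c ≃ₗ[F] Alb a b c :=
  dgm (lm u hu) (rm u hu) (bm (star u) (norm_star_one hu))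

theorem Gu_mem (u : Oct a b c) (hu) : Gu u hu ∈ Spin a b c := dgm_mem (rel_u u hu)

/-- The group generated by the generators. -/
def GS (a b c : Fˣ) : Subgroup (Alb a b c ≃ₗ[F] Alb a b c) :=
  Subgroup.closure {f | ∃ u hu, f = Gu u hu}

theorem Gu_GS (u : Oct a b c) (hu) : Gu u hu ∈ GS a b c := Subgroup.subset_closure ⟨u, hu, rfl⟩

/-- Triality for the products of the maps `x ↦ u x u`. -/
theorem lift_KB {t : OE a b c} (ht : t ∈ KB a b c) :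
    ∃ s1 s2 : OE a b c, Rel s1 s2 t ∧ dgm s1 s2 t ∈ GS a b c := by
  induction ht using Subgroup.closure_induction with
  | mem t ht =>
    obtain ⟨u, hu, rfl⟩ := ht
    obtain ⟨v, rfl⟩ : ∃ v, u = star v := ⟨star u, (star_star u).symm⟩
    have hv : Oct.norm v = 1 := by rw [← Oct.norm_star, hu]
    exact ⟨_, _, rel_u v hv, Gu_GS v hv⟩
  | one => exact ⟨1, 1, rel_one, one_mem _⟩
  | mul s t _ _ hs ht =>
    obtain ⟨s1, s2, h1, h2⟩ := hs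
    obtain ⟨t1, t2, h3, h4⟩ := ht
    exact ⟨s1 * t1, s2 * t2, h1.mul h3, mul_mem h2 h4⟩
  | inv t _ ht =>
    obtain ⟨t1, t2, h3, h4⟩ := ht
    exact ⟨t1⁻¹, t2⁻¹, h3.inv, inv_mem h4⟩

theorem not_rel_of_KB {t1 t2 t3 : OE a b c} (h : Rel t1 t2 t3) (h3 : t3 * ns a b c ∈ KB a b c) :
    False := by
  obtain ⟨s1, s2, h1, -⟩ := lift_KB h3
  have := h.inv.mul h1
  rw [inv_mul_cancel_left] at this
  exact not_rel_neg_star this fun _ => rfl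

theorem norm_sign {e : F} (he : e * e = 1) : Oct.norm (e • (1 : Oct a b c)) = 1 := by
  rw [Oct.norm_smul, Oct.norm_one, mul_one, sq, he]

variable [IsAlgClosed F]

theorem Rel.mem_KB {t1 t2 t3 : OE a b c} (h : Rel t1 t2 t3) : t3 ∈ KB a b c :=
  (ko_of_iso h.i3).resolve_right (not_rel_of_KB h)

/-- Triality: an isometry `t` or `t` composed with `x ↦ -x'` has companions. -/
theorem triality {t : OE a b c} (ht : Iso t) : (∃ s1 s2 : OE a b c, Rel s1 s2 t) ∨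
    ∃ s1 s2 : OE a b c, Rel s1 s2 (t * ns a b c : OE a b c) := by
  rcases ko_of_iso ht with h | h
  · obtain ⟨s1, s2, h1, -⟩ := lift_KB h
    exact Or.inl ⟨s1, s2, h1⟩
  · obtain ⟨s1, s2, h1, -⟩ := lift_KB h
    exact Or.inr ⟨s1, s2, h1⟩

theorem Spin_le_GS : Spin a b c ≤ GS a b c := fun f hf => by
  obtain ⟨t1, t2, t3, h, rfl⟩ := exists_rel hf
  obtain ⟨s1, s2, h1, h2⟩ := lift_KB h.mem_KB
  have h3 := h1.inv.mul h
  rw [inv_mul_cancel] at h3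
  obtain ⟨e, he, k1, k2⟩ := h3.ker3
  have h4 : dgm (s1⁻¹ * t1) (s2⁻¹ * t2) 1 = Gu (e • 1) (norm_sign he) := by
    rw [Gu]
    congr 1
    · ext1 x
      rw [k1, lm_apply, smul_mul_oct, one_mul]
    · ext1 x
      rw [k2, rm_apply, mul_smul_oct, mul_one]
    · ext1 x
      rw [bm_apply, star_smul_oct, star_one, smul_mul_oct, one_mul, mul_smul_oct, mul_one,
        smul_smul, he, one_smul]
      rfl
  have h5 : dgm t1 t2 t3 = dgm s1 s2 t3 * dgm (s1⁻¹ * t1) (s2⁻¹ * t2) 1 := by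
    rw [← dgm_mul, mul_inv_cancel_left, mul_inv_cancel_left, mul_one]
  rw [h5, h4]
  exact mul_mem h2 (Gu_GS _ _)

end Vale.Agent.P011LC
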