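import Vale.Agent.P011LC.Defs
import Vale.Agent.P011LC.Spin
import Vale.Agent.P011LG.Psi

/-! The split groups of type `D₄` and `E₆` have no characters of order two or three. -/

set_option linter.all false

namespace Vale.Agent.P011LC

open Vale.Agent.P011 Vale.Agent.P011.MPQ Vale.Agent.P011.D4 Vale.Agent.P011.D4.Oct
open Vale.Agent.P011.E6 Vale.Agent.P011.E6.Alb Vale.Agent.P011LG

/-- An additive one-parameter family is killed by a character. -/
theorem one_par {K G A : Type} [Field K] [CharZero K] [Group G] [CommGroup A] (χ : G →* A)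
    (hχ : ∀ g, χ g ^ 6 = 1) (x : K → G) (hx : ∀ s t, x (s + t) = x s * x t) (s : K) :
    χ (x s) = 1 := by
  have h : x s = x (s / 6) ^ 6 := by
    rw [show (6 : ℕ) = 1 + 1 + 1 + 1 + 1 + 1 from rfl]
    simp only [pow_succ, pow_zero, one_mul, ← hx]
    congr 1
    ring
  rw [h, map_pow, hχ]

/-- A multiplicative one-parameter family is killed by a character. -/
theorem one_tor {K G A : Type} [Field K] [IsAlgClosed K] [Group G] [CommGroup A] (χ : G →* A)
    (hχ : ∀ g, χ g ^ 6 = 1) (x : K → G) (hx : ∀ s t, s ≠ 0 → t ≠ 0 → x (s * t) = x s * x t)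
    {s : K} (hs : s ≠ 0) : χ (x s) = 1 := by
  obtain ⟨r, rfl⟩ := IsAlgClosed.exists_pow_nat_eq s (n := 6) (by norm_num)
  have hr : r ≠ 0 := fun h => hs (by rw [h]; norm_num)
  have h : ∀ n : ℕ, x (r ^ (n + 1)) = x r ^ (n + 1) := fun n => by
    induction n with
    | zero => rw [zero_add, pow_one, pow_one]
    | succ n ih => rw [pow_succ r, hx _ _ (pow_ne_zero _ hr) hr, ih, ← pow_succ]
  rw [h 5, map_pow, hχ]

variable {F : Type} [Field F] {a b c : Fˣ}

/-- The elements of the subalgebra generated by `w`. -/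
def el (w : Oct a b c) (α β : F) : Oct a b c := α • 1 + β • w

theorem norm_el {w : Oct a b c} (hw : bil w 1 = 0) (α β : F) :
    Oct.norm (el w α β) = α ^ 2 + β ^ 2 * Oct.norm w := by
  rw [el, Oct.norm_add, Oct.norm_smul, Oct.norm_smul, bil_smul_left, bil_smul_right, bil_comm, hw,
    Oct.norm_one]
  ring

theorem el_mul_mul {w : Oct a b c} (hw : bil w 1 = 0) (α β γ δ : F) (x : Oct a b c) :
    el w α β * (el w γ δ * x) =
      el w (α * γ - β * δ * Oct.norm w) (α * δ + β * γ) * x := by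
  have h : w * (w * x) = (-Oct.norm w) • x := by
    rw [mul_mul_self, mul_self_eq, hw, zero_smul, zero_sub, ← neg_smul, smul_mul_oct, one_mul]
  simp only [el, add_mul, mul_add, smul_mul_oct, mul_smul_oct, one_mul, h]
  module

theorem mul_mul_el {w : Oct a b c} (hw : bil w 1 = 0) (α β γ δ : F) (x : Oct a b c) :
    x * el w γ δ * el w α β =
      x * el w (α * γ - β * δ * Oct.norm w) (α * δ + β * γ) := by
  have h : x * w * w = (-Oct.norm w) • x := by
    rw [mul_self_mul, mul_self_eq, hw, zero_smul, zero_sub, ← neg_smul, mul_smul_oct, mul_one]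
  simp only [el, add_mul, mul_add, smul_mul_oct, mul_smul_oct, mul_one, h]
  module

variable [NeZero (2 : F)]

open Classical in
/-- The generators, as elements of the group. -/
noncomputable def Gf (u : Oct a b c) : Spin a b c :=
  if hu : Oct.norm u = 1 then ⟨Gu u hu, Gu_mem u hu⟩ else 1

theorem Gf_eq {u : Oct a b c} (hu : Oct.norm u = 1) : Gf u = ⟨Gu u hu, Gu_mem u hu⟩ := dif_pos hu

theorem Gf_mul {w : Oct a b c} (hw : bil w 1 = 0) {α β γ δ : F}
    (h1 : α ^ 2 + β ^ 2 * Oct.norm w = 1) (h2 : γ ^ 2 + δ ^ 2 * Oct.norm w = 1) :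
    Gf (el w (α * γ - β * δ * Oct.norm w) (α * δ + β * γ)) = Gf (el w α β) * Gf (el w γ δ) := by
  have n1 := (norm_el hw α β).trans h1
  have n2 := (norm_el hw γ δ).trans h2
  have n3 : Oct.norm (el w (α * γ - β * δ * Oct.norm w) (α * δ + β * γ)) = 1 := by
    rw [norm_el hw]
    linear_combination (γ ^ 2 + δ ^ 2 * Oct.norm w) * h1 + h2
  rw [Gf_eq n1, Gf_eq n2, Gf_eq n3]
  refine Subtype.ext ?_
  have e1 : lm _ n3 = lm _ n1 * lm _ n2 := LinearEquiv.ext fun x => (el_mul_mul hw α β γ δ x).symm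
  have e2 : rm _ n3 = rm _ n1 * rm _ n2 := LinearEquiv.ext fun x => (mul_mul_el hw α β γ δ x).symm
  have r := (rel_u _ n1).mul (rel_u _ n2)
  rw [← e1, ← e2] at r
  show Gu _ n3 = Gu _ n1 * Gu _ n2
  rw [Gu, Gu, Gu, ← dgm_mul, ← e1, ← e2, (rel_u _ n3).eq3 r]

variable [IsAlgClosed F] [CharZero F] {A : Type} [CommGroup A] (χ : Spin a b c →* A)
  (hχ : ∀ g, χ g ^ 6 = 1)

include hχ

theorem chi_tor {w : Oct a b c} (hw : bil w 1 = 0) (hn : Oct.norm w ≠ 0) {α β : F}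
    (h : α ^ 2 + β ^ 2 * Oct.norm w = 1) : χ (Gf (el w α β)) = 1 := by
  obtain ⟨ρ, hρ⟩ := IsAlgClosed.exists_eq_mul_self (-Oct.norm w)
  have hw' : Oct.norm w = -(ρ * ρ) := by rw [← hρ, neg_neg]
  have h0 : ρ ≠ 0 := fun e => hn (by rw [hw', e]; ring)
  have hl : (α + ρ * β) * (α - ρ * β) = 1 := by rw [hw'] at h; linear_combination h
  have hs : α + ρ * β ≠ 0 := left_ne_zero_of_mul_eq_one hl
  have hi : (α + ρ * β)⁻¹ = α - ρ * β := inv_eq_of_mul_eq_one_right hl
  have hN : ∀ s : F, s ≠ 0 → ((s + s⁻¹) / 2) ^ 2 + ((s - s⁻¹) / (2 * ρ)) ^ 2 * Oct.norm w = 1 :=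
    fun s hs => by rw [hw']; field_simp; ring
  have := one_tor χ hχ (fun s => Gf (el w ((s + s⁻¹) / 2) ((s - s⁻¹) / (2 * ρ))))
    (fun s t hs ht => by
      rw [← Gf_mul hw (hN s hs) (hN t ht), hw']
      congr 2 <;> field_simp <;> ring) hs
  rw [hi] at this
  rwa [show (α + ρ * β + (α - ρ * β)) / 2 = α by ring,
    show (α + ρ * β - (α - ρ * β)) / (2 * ρ) = β by field_simp; ring] at this

theorem chi_uni {w : Oct a b c} (hw : bil w 1 = 0) (hn : Oct.norm w = 0) (β : F) :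
    χ (Gf (el w 1 β)) = 1 :=
  one_par χ hχ (fun s => Gf (el w 1 s)) (fun s t => by
    rw [← Gf_mul hw (by rw [hn]; ring) (by rw [hn]; ring), hn]
    congr 2 <;> ring) β

theorem chi_Gf {u : Oct a b c} (hu : Oct.norm u = 1) : χ (Gf u) = 1 := by
  obtain ⟨w, α, hw, rfl⟩ : ∃ w α, bil w 1 = 0 ∧ u = el w α 1 := by
    refine ⟨u - (bil u 1 / 2) • 1, bil u 1 / 2, ?_, ?_⟩
    · rw [bil_sub_left, bil_smul_left, bil_self, Oct.norm_one]
      ring
    · rw [el, one_smul, add_sub_cancel]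
  rw [norm_el hw] at hu
  by_cases hn : Oct.norm w = 0
  swap
  · exact chi_tor χ hχ hw hn hu
  have h1 : α * α = 1 := by rw [hn] at hu; linear_combination hu
  rcases mul_self_eq_one_iff.1 h1 with rfl | rfl
  · exact chi_uni χ hχ hw hn 1
  · have h2 := Gf_mul hw (α := -1) (β := 0) (γ := 1) (δ := -1) (by ring) (by rw [hn]; ring)
    rw [show (-1 : F) * 1 - 0 * -1 * Oct.norm w = -1 by ring,
      show (-1 : F) * -1 + 0 * 1 = 1 by ring] at h2
    have h3 : el w (-1) 0 = el (⟨⟨0, 1, 0, 0⟩, 0⟩ : Oct a b c) (-1) 0 := by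
      rw [el, el, zero_smul, zero_smul]
    rw [h2, map_mul, chi_uni χ hχ hw hn, h3, chi_tor χ hχ (by simp [bil_eq])
      (by simp [Oct.norm, nrd]) (by ring), one_mul]

omit hχ χ in
theorem noCh_Spin : NoCh (Spin a b c) := fun A _ χ hχ g => by
  obtain ⟨g, hg⟩ := g
  have : ∀ f ∈ GS a b c, ∃ hf : f ∈ Spin a b c, χ ⟨f, hf⟩ = 1 := fun f hf => by
    induction hf using Subgroup.closure_induction with
    | mem f hf =>
      obtain ⟨u, hu, rfl⟩ := hf
      exact ⟨Gu_mem u hu, by rw [← Gf_eq hu, chi_Gf χ hχ hu]⟩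
    | one => exact ⟨one_mem _, map_one χ⟩
    | mul s t _ _ hs ht =>
      obtain ⟨h1, h2⟩ := hs
      obtain ⟨h3, h4⟩ := ht
      exact ⟨mul_mem h1 h3, (map_mul χ ⟨s, h1⟩ ⟨t, h3⟩).trans (by rw [h2, h4, one_mul])⟩
    | inv t _ ht =>
      obtain ⟨h3, h4⟩ := ht
      exact ⟨inv_mem h3, (map_inv χ ⟨t, h3⟩).trans (by rw [h4, inv_one])⟩
  exact (this g (Spin_le_GS hg)).2

omit hχ χ in
/-- The group `SD` is the group of related triples. -/
noncomputable def spinE (r : Fˣ) (hr : c = r * r) : P011L.SD F ≃* Spin a b c where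
  toFun g := ⟨toA a b c r g, (toA_mem_SD a b c r hr).1 g.2⟩
  invFun f := ⟨(toA a b c r).symm f, (toA_mem_SD a b c r hr).2 (by
    rw [MulEquiv.apply_symm_apply]; exact f.2)⟩
  left_inv g := Subtype.ext ((toA a b c r).symm_apply_apply _)
  right_inv f := Subtype.ext ((toA a b c r).apply_symm_apply _)
  map_mul' g h := Subtype.ext (map_mul (toA a b c r) g.1 h.1)

omit hχ χ [NeZero (2 : F)] [IsAlgClosed F] [CharZero F] in
theorem NoCh.congr {G H : Type} [Group G] [Group H] (e : G ≃* H) (h : NoCh H) : NoCh G :=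
  fun A _ χ hχ g => by
    have := h A (χ.comp e.symm.toMonoidHom) (fun x => hχ _) (e g)
    simpa using this

omit hχ χ [NeZero (2 : F)] [IsAlgClosed F] [CharZero F] in
theorem ncd : NCD := fun K _ _ _ =>
  NoCh.congr (spinE (a := 1) (b := 1) (c := 1) 1 (mul_one 1).symm) noCh_Spin

omit hχ χ [NeZero (2 : F)] [IsAlgClosed F] [CharZero F] in
theorem nce : NCE := fun K _ _ _ A _ χ hχ g => by
  obtain ⟨g, hg⟩ := g
  obtain ⟨u, hu, d, hd, rfl⟩ := SE_eq (fun t => IsAlgClosed.exists_eq_mul_self t) hg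
  have h1 : ∀ f ∈ OneP K (P011L.SE K), ∃ hf : f ∈ P011L.SE K, χ ⟨f, hf⟩ = 1 := fun f hf => by
    induction hf using Subgroup.closure_induction with
    | mem f hf =>
      obtain ⟨x, hx, hx', rfl⟩ := hf
      exact ⟨hx 1, one_par χ hχ (fun s => ⟨x s, hx s⟩) (fun s t => Subtype.ext (hx' s t)) 1⟩
    | one => exact ⟨one_mem _, map_one χ⟩
    | mul s t _ _ hs ht =>
      obtain ⟨h1, h2⟩ := hs
      obtain ⟨h3, h4⟩ := ht
      exact ⟨mul_mem h1 h3, (map_mul χ ⟨s, h1⟩ ⟨t, h3⟩).trans (by rw [h2, h4, one_mul])⟩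
    | inv t _ ht =>
      obtain ⟨h3, h4⟩ := ht
      exact ⟨inv_mem h3, (map_inv χ ⟨t, h3⟩).trans (by rw [h4, inv_one])⟩
  obtain ⟨h2, h3⟩ := h1 u hu
  have h4 := ncd K A (χ.comp (Subgroup.inclusion P011LT.SD_le)) (fun x => hχ _) ⟨d, hd⟩
  refine (map_mul χ ⟨u, h2⟩ ⟨d, P011LT.SD_le hd⟩).trans ?_
  rw [h3, one_mul]
  exact h4

end Vale.Agent.P011LC
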