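import Vale.Agent.P011.E6.Ids
import Vale.Agent.P011.D4.Maps
import Vale.Agent.P011.D4Z.H67.Improper

/-! Related triples of isometries of an octonion algebra. -/

set_option linter.all false

namespace Vale.Agent.P011LC

open Vale.Agent.P011 Vale.Agent.P011.MPQ Vale.Agent.P011.D4 Vale.Agent.P011.D4.Oct
open Vale.Agent.P011.E6 Vale.Agent.P011.E6.Alb

variable {F : Type} [Field F] {a b c : Fˣ}

/-- The linear automorphisms of the octonions. -/
abbrev OE (a b c : Fˣ) : Type := Oct a b c ≃ₗ[F] Oct a b c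

/-- The map preserves the norm. -/
def Iso (t : Oct a b c → Oct a b c) : Prop := ∀ x, norm (t x) = norm x

theorem Iso.bil {t : OE a b c} (h : Iso t) (x y : Oct a b c) : bil (t x) (t y) = bil x y := by
  rw [Oct.bil, Oct.bil, ← map_add, h, h, h]

theorem Iso.mul {s t : OE a b c} (hs : Iso s) (ht : Iso t) : Iso (s * t : OE a b c) :=
  fun x => (hs (t x)).trans (ht x)

theorem Iso.inv {t : OE a b c} (ht : Iso t) : Iso (t⁻¹ : OE a b c) := fun x => by
  rw [← ht (t⁻¹ x)]
  exact congrArg Oct.norm (t.apply_symm_apply x)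

theorem iso_one : Iso (1 : OE a b c) := fun _ => rfl

/-- A related triple. -/
structure Rel (t1 t2 t3 : Oct a b c → Oct a b c) : Prop where
  i1 : Iso t1
  i2 : Iso t2
  i3 : Iso t3
  rel : ∀ x y z, bil (t1 x * t2 y * t3 z) 1 = bil (x * y * z) 1

theorem bil_cyc (x y z : Oct a b c) : bil (x * y * z) 1 = bil (y * z * x) 1 := by
  rw [← tri1, ← tri3]

theorem Rel.cyc {t1 t2 t3 : Oct a b c → Oct a b c} (h : Rel t1 t2 t3) : Rel t2 t3 t1 :=
  ⟨h.i2, h.i3, h.i1, fun x y z => by rw [← bil_cyc, h.rel, bil_cyc]⟩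

theorem rel_one : Rel (1 : OE a b c) (1 : OE a b c) (1 : OE a b c) :=
  ⟨iso_one, iso_one, iso_one, fun _ _ _ => rfl⟩

theorem Rel.mul {s1 s2 s3 t1 t2 t3 : OE a b c} (hs : Rel s1 s2 s3) (ht : Rel t1 t2 t3) :
    Rel (s1 * t1 : OE a b c) (s2 * t2 : OE a b c) (s3 * t3 : OE a b c) :=
  ⟨hs.i1.mul ht.i1, hs.i2.mul ht.i2, hs.i3.mul ht.i3,
    fun x y z => (hs.rel (t1 x) (t2 y) (t3 z)).trans (ht.rel x y z)⟩

theorem Rel.inv {t1 t2 t3 : OE a b c} (ht : Rel t1 t2 t3) :
    Rel (t1⁻¹ : OE a b c) (t2⁻¹ : OE a b c) (t3⁻¹ : OE a b c) :=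
  ⟨ht.i1.inv, ht.i2.inv, ht.i3.inv, fun x y z => by
    rw [← ht.rel]
    exact congrArg (fun w => bil w 1) (congrArg₂ (· * ·)
      (congrArg₂ (· * ·) (t1.apply_symm_apply x) (t2.apply_symm_apply y)) (t3.apply_symm_apply z))⟩

variable [NeZero (2 : F)]

theorem Rel.m3 {t1 t2 : Oct a b c → Oct a b c} {t3 : OE a b c} (h : Rel t1 t2 t3)
    (x y : Oct a b c) : t3 (star (x * y)) = star (t1 x * t2 y) := by
  apply eq_of_bil
  intro w
  obtain ⟨z, rfl⟩ := t3.surjective w
  rw [h.i3.bil, tri3, tri3, h.rel]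

theorem Rel.m1 {t2 t3 : Oct a b c → Oct a b c} {t1 : OE a b c} (h : Rel t1 t2 t3)
    (x y : Oct a b c) : t1 (star (x * y)) = star (t2 x * t3 y) := h.cyc.m3 x y

theorem Rel.m2 {t1 t3 : Oct a b c → Oct a b c} {t2 : OE a b c} (h : Rel t1 t2 t3)
    (x y : Oct a b c) : t2 (star (x * y)) = star (t3 x * t1 y) := h.cyc.cyc.m3 x y

omit [NeZero (2 : F)] in
theorem rel_of_m3 {t1 t2 : Oct a b c → Oct a b c} {t3 : OE a b c} (h1 : Iso t1) (h2 : Iso t2)
    (h3 : Iso t3) (h : ∀ x y, t3 (star (x * y)) = star (t1 x * t2 y)) : Rel t1 t2 t3 :=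
  ⟨h1, h2, h3, fun x y z => by rw [← tri3, ← h, h3.bil, tri3]⟩

/-- The third map is determined by the first two. -/
theorem Rel.eq3 {t1 t2 : Oct a b c → Oct a b c} {t3 s3 : OE a b c} (h : Rel t1 t2 t3)
    (h' : Rel t1 t2 s3) : t3 = s3 := by
  ext1 w
  have e1 := h.m3 (star w) 1
  have e2 := h'.m3 (star w) 1
  rw [mul_one, star_star] at e1 e2
  rw [e1, e2]

/-- The middle nucleus consists of the scalars. -/
theorem nucleus {p : Oct a b c} (h : ∀ x y : Oct a b c, x * p * y = x * (p * y)) :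
    p = p.fst.re • (1 : Oct a b c) := by
  have h2 : (2 : F) ≠ 0 := NeZero.ne 2
  have ha : (a : F) ≠ 0 := a.ne_zero
  have hb : (b : F) ≠ 0 := b.ne_zero
  have hz : ∀ x : F, -x = x → x = 0 := fun x hx => by
    have h1 : (2 : F) * x = 0 := by linear_combination -hx
    exact (mul_eq_zero.1 h1).resolve_left h2
  have hy : ∀ x : F, x = -x → x = 0 := fun x hx => hz x hx.symm
  have h1 := h ⟨⟨0, 1, 0, 0⟩, 0⟩ ⟨⟨0, 0, 1, 0⟩, 0⟩
  have h3 := h ⟨⟨0, 1, 0, 0⟩, 0⟩ ⟨0, ⟨1, 0, 0, 0⟩⟩
  have h4 := h ⟨⟨0, 0, 1, 0⟩, 0⟩ ⟨0, ⟨1, 0, 0, 0⟩⟩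
  have e1 := congrArg (fun x : Oct a b c => x.snd.re) h1
  have e2 := congrArg (fun x : Oct a b c => x.snd.imI) h1
  have e3 := congrArg (fun x : Oct a b c => x.snd.imJ) h1
  have e4 := congrArg (fun x : Oct a b c => x.snd.imK) h1
  have e5 := congrArg (fun x : Oct a b c => x.snd.imJ) h3
  have e6 := congrArg (fun x : Oct a b c => x.snd.imK) h3
  have e7 := congrArg (fun x : Oct a b c => x.snd.imK) h4
  simp at e1 e2 e3 e4 e5 e6 e7
  have g1 : p.snd.imK = 0 := by
    have : (2 : F) * a * b * p.snd.imK = 0 := by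
      first | linear_combination e1 | linear_combination -e1
    simpa [h2, ha, hb] using this
  have g2 : p.snd.imJ = 0 := by
    have : (2 : F) * b * p.snd.imJ = 0 := by
      first | linear_combination e2 | linear_combination -e2
    simpa [h2, ha, hb] using this
  have g3 : p.snd.imI = 0 := by
    have : (2 : F) * a * p.snd.imI = 0 := by
      first | linear_combination e3 | linear_combination -e3
    simpa [h2, ha, hb] using this
  have g4 : p.snd.re = 0 := by
    have : (2 : F) * p.snd.re = 0 := by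
      first | linear_combination e4 | linear_combination -e4
    simpa [h2, ha, hb] using this
  have g5 : p.fst.imK = 0 := by
    have : (2 : F) * a * p.fst.imK = 0 := by
      first | linear_combination e5 | linear_combination -e5
    simpa [h2, ha, hb] using this
  have g6 : p.fst.imJ = 0 := by
    have : (2 : F) * p.fst.imJ = 0 := by
      first | linear_combination e6 | linear_combination -e6
    simpa [h2, ha, hb] using this
  have g7 : p.fst.imI = 0 := by
    have : (2 : F) * p.fst.imI = 0 := by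
      first | linear_combination e7 | linear_combination -e7
    simpa [h2, ha, hb] using this
  apply ext8 <;> simp [g1, g2, g3, g4, g5, g6, g7]

/-- The kernel of the third projection. -/
theorem Rel.ker3 {t1 t2 : Oct a b c → Oct a b c} (h : Rel t1 t2 (1 : OE a b c)) :
    ∃ e : F, e * e = 1 ∧ (∀ x, t1 x = e • x) ∧ ∀ x, t2 x = e • x := by
  have hm : ∀ x y, x * y = t1 x * t2 y := fun x y => star_injective (h.m3 x y)
  have n1 : norm (t1 1) = 1 := by rw [h.i1, Oct.norm_one]
  have n2 : norm (t2 1) = 1 := by rw [h.i2, Oct.norm_one]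
  have e2 : ∀ y, t2 y = star (t1 1) * y := fun y => by
    have := star_mul_mul (t1 1) (t2 y)
    rw [← hm, one_mul, n1, one_smul] at this
    exact this.symm
  have e1 : ∀ x, t1 x = x * t1 1 := fun x => by
    have := mul_mul_star (t2 1) (t1 x)
    rw [← hm, mul_one, n2, one_smul, e2, mul_one, star_star] at this
    exact this.symm
  have hp : t1 1 = (t1 1).fst.re • (1 : Oct a b c) := nucleus fun x y => by
    have := hm x (t1 1 * y)
    rw [e2, star_mul_mul, n1, one_smul, e1 x] at this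
    exact this.symm
  refine ⟨(t1 1).fst.re, ?_, fun x => ?_, fun x => ?_⟩
  · rw [hp, Oct.norm_smul, Oct.norm_one, mul_one, sq] at n1
    exact n1
  · rw [e1, hp, mul_smul_oct, mul_one]
    simp
  · rw [e2, hp, star_smul_oct, star_one, smul_mul_oct, one_mul]
    simp

/-- The map `x ↦ -x'` has no companions. -/
theorem not_rel_neg_star {t1 t2 : Oct a b c → Oct a b c} {t3 : OE a b c} (h : Rel t1 t2 t3)
    (h3 : ∀ x, t3 x = -star x) : False := by
  refine D4Z.H67.no_swap (NeZero.ne 2) (a := a) (b := b) (c := c) (fun x => -t1 (star x))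
    (fun y => t2 (star y)) fun x y => ?_
  have e := h.m3 (star x) (star y)
  rw [h3, star_star] at e
  have e' := congrArg star e
  rw [star_star, star_neg, star_mul, star_star, star_star] at e'
  rw [neg_mul, ← e', neg_neg]

end Vale.Agent.P011LC
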