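import Vale.Agent.P011LC.WS
import Vale.Agent.P011LC.NC
import Vale.Agent.P011LH.IF
import Vale.Agent.P011LT.T1

/-! From a twisted action on the split group of type `D₄` to descent data. -/

set_option linter.all false

namespace Vale.Agent.P011LC

open Vale.Agent.P011 Vale.Agent.P011.MPQ Vale.Agent.P011.D4 Vale.Agent.P011.D4.Oct
open Vale.Agent.P011.E6 Vale.Agent.P011.E6.Alb Vale.Agent.P011LG Matrix
open Vale.Agent.P011LH (RR WW bt ac Pr Sm Sim cm cq)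
open Vale.Agent.P011L (SD SE Tw CD Pol)
open Vale.Agent.P011LD (Op)

variable {k K : Type} [Field k] [Field K] [Algebra k K]

/-- The action on the coefficients. -/
def cw (σ : K ≃ₐ[k] K) (x : WW (1 : Kˣ) 1 1) : WW (1 : Kˣ) 1 1 := fun i => cm σ (x i)

/-- The action on the coefficients. -/
def ca (σ : K ≃ₐ[k] K) (z : Alb (1 : Kˣ) 1 1) : Alb (1 : Kˣ) 1 1 :=
  ⟨σ z.d1, σ z.d2, σ z.d3, cm σ z.x1, cm σ z.x2, cm σ z.x3⟩

theorem ca_emb (σ : K ≃ₐ[k] K) (x : WW (1 : Kˣ) 1 1) : ca σ (emb x) = emb (cw σ x) :=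
  Alb.ext (map_zero σ) (map_zero σ) (map_zero σ) rfl rfl rfl

theorem off_ca (σ : K ≃ₐ[k] K) (z : Alb (1 : Kˣ) 1 1) : off (ca σ z) = cw σ (off z) := by
  funext i; fin_cases i <;> rfl

theorem cm_add (σ : K ≃ₐ[k] K) (x y : Oct (1 : Kˣ) 1 1) : cm σ (x + y) = cm σ x + cm σ y := by
  apply ext8 <;> simp [cm, cq]

theorem cm_smul (σ : K ≃ₐ[k] K) (t : K) (x : Oct (1 : Kˣ) 1 1) : cm σ (t • x) = σ t • cm σ x := by
  apply ext8 <;> simp [cm, cq]

theorem cm_star (σ : K ≃ₐ[k] K) (x : Oct (1 : Kˣ) 1 1) : cm σ (star x) = star (cm σ x) := by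
  apply ext8 <;> simp [cm, cq]

theorem cq_mul (σ : K ≃ₐ[k] K) (x y : Qt (1 : Kˣ) 1) : cq σ (x * y) = cq σ x * cq σ y := by
  ext <;> simp [cq]

theorem cq_add (σ : K ≃ₐ[k] K) (x y : Qt (1 : Kˣ) 1) : cq σ (x + y) = cq σ x + cq σ y := by
  ext <;> simp [cq]

theorem cq_star (σ : K ≃ₐ[k] K) (x : Qt (1 : Kˣ) 1) : cq σ (star x) = star (cq σ x) := by
  ext <;> simp [cq]

theorem cm_mul (σ : K ≃ₐ[k] K) (x y : Oct (1 : Kˣ) 1 1) : cm σ (x * y) = cm σ x * cm σ y := by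
  ext1 <;> simp only [cm, fst_mul, snd_mul, Units.val_one, one_smul, cq_mul, cq_add, cq_star]

theorem sm_cw (σ : K ≃ₐ[k] K) : Sm σ 1 1 (cw σ) where
  add x y := funext fun i => cm_add σ _ _
  smul u x := funext fun i => cm_smul σ _ _
  bij := Function.bijective_iff_has_inverse.2 ⟨cw σ.symm,
    fun x => funext fun i => by apply ext8 <;> simp [cw, cm, cq],
    fun x => funext fun i => by apply ext8 <;> simp [cw, cm, cq]⟩
  mul x y := funext fun i => by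
    simp only [one_smul, cw, bt, cm_star, cm_add, cm_mul]

theorem op_cw (x : WW (1 : Kˣ) 1 1) : Op (⊤ : Subgroup (K ≃ₐ[k] K)) fun σ => cw σ x = x :=
  (Op.all fun i => Op.vec ⊤ (H24.oc (x i))).imp fun σ _ h => funext fun i => by
    have e := fun m => congrFun (h i) m
    exact ext8 (e 0) (e 1) (e 2) (e 3) (e 4) (e 5) (e 6) (e 7)

/-- The action on the matrices. -/
def galD (σ : K ≃ₐ[k] K) : SD K ≃* SD K where
  toFun g := ⟨_, P011LT.map_SD (σ : K ≃+* K) g.2⟩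
  invFun g := ⟨_, P011LT.map_SD (σ.symm : K ≃+* K) g.2⟩
  left_inv g := Subtype.ext (Units.ext (Matrix.ext fun i j => σ.symm_apply_apply _))
  right_inv g := Subtype.ext (Units.ext (Matrix.ext fun i j => σ.apply_symm_apply _))
  map_mul' g h := Subtype.ext (map_mul _ g.1 h.1)

theorem sm_comp {a b c : Kˣ} {σ τ : K ≃ₐ[k] K} {π ρ : Equiv.Perm (Fin 3)}
    {f g : WW a b c → WW a b c} (hf : Sm σ π 1 f) (hg : Sm τ ρ 1 g) :
    Sm (σ * τ) (π * ρ) 1 fun x => f (g x) where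
  add x y := by rw [hg.add, hf.add]
  smul u x := by rw [hg.smul, hf.smul]; rfl
  bij := hf.bij.comp hg.bij
  mul x y := by rw [hg.mul, one_smul, hf.mul]

variable [CharZero K]

theorem Psi_ca (σ : K ≃ₐ[k] K) (x : Fin 3 × Fin 3 × Fin 3 → K) :
    Psi 1 1 1 1 (σ ∘ x) = ca σ (Psi 1 1 1 1 x) := by
  rw [Psi_apply, Psi_apply]
  refine Alb.ext rfl rfl rfl ?_ ?_ ?_ <;> apply ext8 <;> simp [ca, cm, cq, zo, map_ofNat]

theorem Psi_ee (i : Fin 3) : Psi (1 : Kˣ) 1 1 1 (Pi.single (0, i, i) 1) = ee i := by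
  obtain ⟨h1, h2, h3⟩ := Psi_single (1 : Kˣ) 1 1 1
  fin_cases i
  exacts [h1, h2, h3]

variable [IsAlgClosed K]

/-- The split group acts on the three representations. -/
noncomputable def th (K : Type) [Field K] [CharZero K] [IsAlgClosed K] :
    SD K ≃* P011LH.Spin (1 : Kˣ) 1 1 :=
  (spinE 1 (mul_one 1).symm).trans (spW 1 1 1)

theorem th_apply (g : SD K) (x : WW (1 : Kˣ) 1 1) : (th K g).1 x = fw (toA 1 1 1 1 g.1) x := rfl

theorem pm_SD (g : SD K) : Pm (toA (1 : Kˣ) 1 1 1 g.1) 1 :=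
  pm_of_Spin ((toA_mem_SD 1 1 1 1 (mul_one 1).symm).1 g.2)

theorem key {σ : K ≃ₐ[k] K} {g g' : SD K} {s : GL (Fin 3 × Fin 3 × Fin 3) K}
    {π : Equiv.Perm (Fin 3)} (hs : Pm (toA (1 : Kˣ) 1 1 1 s) π)
    (h : g'.1.1 * s.1 = s.1 * g.1.1.map σ) (x : WW (1 : Kˣ) 1 1) :
    (th K g').1 (fw (toA 1 1 1 1 s) (cw σ x)) = fw (toA 1 1 1 1 s) (cw σ ((th K g).1 x)) := by
  obtain ⟨v, hv⟩ := (Psi (1 : Kˣ) 1 1 1).surjective (emb x)
  rw [th_apply, th_apply, fw_apply (toA _ _ _ _ g'.1), ← hs.emb, fw_apply (toA _ _ _ _ g.1),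
    ← off_ca, ← hs.off, ← ca_emb, ← hv, toA_apply, ← Psi_ca, ← Psi_ca, toA_apply, toA_apply,
    toA_apply, mulVec_mulVec, h, ← mulVec_mulVec]
  exact congrArg (fun w => off (Psi 1 1 1 1 (s.1 *ᵥ w)))
    (P011LT.map_mulVec' (σ : K →+* K) g.1.1 v)

theorem exists_s (cd : CD) (T : Tw k (SD K)) (σ : K ≃ₐ[k] K) : ∃ s ∈ SE K,
    ∃ π : Equiv.Perm (Fin 3), (∀ i, s.1 *ᵥ Pi.single (0, i, i) 1 = Pi.single (0, π i, π i) 1) ∧
      ∀ g : SD K, (T.a σ g).1.1 * s.1 = s.1 * g.1.1.map σ := by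
  obtain ⟨s, h1, π, h2, h3⟩ := cd K ((galD σ).symm.trans (T.a σ)) (fun i j => by
    obtain ⟨p, hp⟩ := T.pol σ i j
    exact ⟨p, fun g => (hp _).trans (congrArg (fun x => MvPolynomial.eval x p)
      (funext fun e => σ.apply_symm_apply _))⟩) fun i j => by
    obtain ⟨p, hp⟩ := T.pol σ⁻¹ i j
    refine ⟨MvPolynomial.map (σ : K →+* K) p, fun g => ?_⟩
    have e : ((galD σ).symm.trans (T.a σ)).symm g = galD σ (T.a σ⁻¹ g) := by rw [map_inv]; rfl
    rw [e]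
    show σ ((T.a σ⁻¹ g).1.1 i j) = _
    rw [hp, P011LT.map_eval]
    exact congrArg (fun x => MvPolynomial.eval x _) (funext fun e => σ.apply_symm_apply _)
  refine ⟨s, h1, π, h2, fun g => ?_⟩
  have := h3 (galD σ g)
  rwa [MulEquiv.trans_apply, MulEquiv.symm_apply_apply] at this

theorem entry (i j : Fin 3 × Fin 3 × Fin 3) : ∃ (c : K) (L : WW (1 : Kˣ) 1 1 →ₗ[K] K)
    (x : WW (1 : Kˣ) 1 1), ∀ g : SD K, g.1.1 i j = c + L ((th K g).1 x) := by
  let z : Alb (1 : Kˣ) 1 1 := Psi 1 1 1 1 (Pi.single j 1)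
  let M : Alb (1 : Kˣ) 1 1 →ₗ[K] K := LinearMap.proj i ∘ₗ (Psi (1 : Kˣ) 1 1 1).symm.toLinearMap
  refine ⟨M (∑ m, tf z (ee m) • ee m), M ∘ₗ emb, off z, fun g => ?_⟩
  have h : ∑ m, tf z (ee m) • ee m + toA (1 : Kˣ) 1 1 1 g.1 (emb (off z)) =
      toA (1 : Kˣ) 1 1 1 g.1 z := by
    conv_rhs => rw [split_eq z]
    simp only [map_add, map_sum, map_smul, (pm_SD g).perm]
    rfl
  rw [LinearMap.comp_apply M emb, ← map_add, th_apply, ← (pm_SD g).emb, h, toA_apply]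
  show _ = (Psi (1 : Kˣ) 1 1 1).symm (Psi (1 : Kˣ) 1 1 1 _) i
  rw [LinearEquiv.symm_apply_apply, mulVec_single_one]
  rfl

omit [CharZero K] [IsAlgClosed K] in
theorem start (cd : CD) : P011LH.START := fun k K _ _ _ _ _ T => by
  have : IsAlgClosed K := IsAlgClosure.isAlgClosed k
  have : CharZero K := charZero_of_injective_algebraMap (algebraMap k K).injective
  choose s h1 π h2 h3 using exists_s cd T
  have pm : ∀ σ, Pm (toA (1 : Kˣ) 1 1 1 (s σ)) (π σ) := fun σ =>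
    ⟨(toA_mem 1 1 1 1 (mul_one 1).symm).2 (h1 σ), fun i => by
      rw [← Psi_ee, toA_apply, h2, Psi_ee]⟩
  let P : (K ≃ₐ[k] K) → WW (1 : Kˣ) 1 1 → WW (1 : Kˣ) 1 1 :=
    fun σ x => fw (toA 1 1 1 1 (s σ)) (cw σ x)
  have hk : ∀ σ g x, (th K (T.a σ g)).1 (P σ x) = P σ ((th K g).1 x) :=
    fun σ g x => key (pm σ) (h3 σ g) x
  have sm : ∀ σ, Sm σ (π σ) 1 (P σ) := fun σ =>
    { add := fun x y => by simp only [P, (sm_cw σ).add, map_add]
      smul := fun u x => by simp only [P, (sm_cw σ).smul, (pm σ).smul]; rfl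
      bij := (pm σ).bij.comp (sm_cw σ).bij
      mul := fun x y => by simp only [P, (sm_cw σ).mul, one_smul, (pm σ).bt] }
  have hm : ∀ σ τ, π σ * π τ = π (σ * τ) ∧ Pr (fun x => P σ (P τ x)) (P (σ * τ)) := fun σ τ =>
    schur (sm_comp (sm σ) (sm τ)) (sm (σ * τ)) fun g => by
      obtain ⟨g, rfl⟩ := (th K).surjective g
      refine ⟨(th K (T.a (σ * τ) g)).1, fun x => ?_, hk _ g⟩
      rw [map_mul, MulAut.mul_apply, hk, hk]
  have hc : Op (⊤ : Subgroup (K ≃ₐ[k] K)) fun σ => π σ = 1 ∧ Pr (P σ) (cw σ) := by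
    obtain ⟨F, hF, h⟩ := T.cont
    refine Op.of_field F fun σ _ e => schur (sm σ) (sm_cw σ) fun g => ?_
    obtain ⟨g, rfl⟩ := (th K).surjective g
    refine ⟨(th K (T.a σ g)).1, hk σ g, fun x => ?_⟩
    have e1 : ∀ y : WW (1 : Kˣ) 1 1, fw (toA 1 1 1 1 1) y = y := fun y => by
      rw [map_one]; exact off_emb y
    have := key (σ := σ) (g := g) (g' := T.a σ g) (s := 1) (pm_SD 1)
      (by rw [h σ e, Units.val_one, mul_one, one_mul]) x
    rwa [e1, e1] at this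
  have hi : ∀ σ (g g' : SD K), (∀ x, P σ ((th K g).1 x) = (th K g').1 (P σ x)) → T.a σ g = g' :=
    fun σ g g' h => (th K).injective (Subtype.ext (LinearEquiv.ext fun y => by
      obtain ⟨x, rfl⟩ := (sm σ).bij.2 y
      rw [hk, h]))
  refine ⟨MonoidHom.mk' π fun σ τ => (hm σ τ).1.symm, P, ⟨fun σ _ => ⟨1, sm σ⟩,
    fun σ _ τ _ => (hm σ τ).2, fun x y => ?_, hc.imp fun _ _ h => h.1⟩, ⟨?_⟩, ?_,
    fun σ e => ⟨s σ, P011LT.mem_SD.2 ⟨h1 σ, fun i => ?_⟩, h3 σ⟩⟩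
  · refine (hc.and ((op_cw x).and (op_cw y))).imp fun σ _ ⟨⟨_, u, hu⟩, hx, hy⟩ => ⟨u, ?_, ?_⟩
    · rw [hu, hx]
    · rw [hu, hy]
  · exact
      { toFun := fun g => ⟨th K g.1, fun σ x => by rw [← hk, g.2 σ]⟩
        invFun := fun g => ⟨(th K).symm g.1, fun σ => hi σ _ _ fun x => by
          rw [MulEquiv.apply_symm_apply]; exact (g.2 σ x).symm⟩
        left_inv := fun g => Subtype.ext ((th K).symm_apply_apply _)
        right_inv := fun g => Subtype.ext ((th K).apply_symm_apply _)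
        map_mul' := fun g h => Subtype.ext (map_mul (th K) g.1 h.1) }
  · rintro an l ⟨A, B, C, hl⟩ he t
    obtain ⟨g, y, hy⟩ := P011LT.diag_of_lau ((SD K).subtype.comp ((th K).symm.toMonoidHom.comp l))
      fun i j => by
        obtain ⟨c, L, x, hx⟩ := entry (K := K) i j
        refine P011LT.Lau.congr (add_mem (P011LT.Lau.const c) (add_mem (add_mem
          (P011LT.Lau.const (L (A x))) (Submodule.smul_mem _ (L (B x)) (P011LT.Lau.ch 1)))
          (Submodule.smul_mem _ (L (C x)) (P011LT.Lau.ch (-1))))) fun t => ?_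
        refine (hx ((th K).symm (l t))).trans ?_
        rw [MulEquiv.apply_symm_apply, hl, map_add, map_add, map_smul, map_smul]
        simp [P011LT.ch_apply, mul_comm]
    have y0 := an g y (fun t => (th K).symm (l t)) hy fun σ t => hi σ _ _ fun x => by
      rw [MulEquiv.apply_symm_apply, MulEquiv.apply_symm_apply, he]
    have e := hy t
    simp only [y0, Pi.zero_apply, zpow_zero, Units.val_one, diagonal_one, mul_one] at e
    have e' : ((th K).symm (l t)).1 * g = 1 * g := Units.ext (e.trans (one_mul _).symm)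
    exact (th K).symm.injective (Subtype.ext ((mul_right_cancel e').trans
      (congrArg Subtype.val (map_one (th K).symm)).symm))
  · have e' : π σ = 1 := e
    rw [h2, e']
    rfl

end Vale.Agent.P011LC
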