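import Vale.Agent.P011LC.Spin
import Vale.Agent.P011LG.Dual
import Vale.Agent.P011LH.Defs

/-! The action on the three entries off the diagonal; the lemma of Schur. -/

set_option linter.all false

namespace Vale.Agent.P011LC

open Vale.Agent.P011 Vale.Agent.P011.MPQ Vale.Agent.P011.D4 Vale.Agent.P011.D4.Oct
open Vale.Agent.P011.E6 Vale.Agent.P011.E6.Alb Vale.Agent.P011LG Vale.Agent.P011.D4.H24
open Vale.Agent.P011LH (RR WW bt ac Pr Sm Sim cm cq)

variable {F : Type} [Field F] {a b c : Fˣ}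

/-- The hermitian matrix with zero diagonal. -/
def emb : WW a b c →ₗ[F] Alb a b c where
  toFun x := ⟨0, 0, 0, x 0, x 1, x 2⟩
  map_add' x y := by ext1 <;> simp
  map_smul' t x := by ext1 <;> simp

/-- The entries off the diagonal. -/
def off : Alb a b c →ₗ[F] WW a b c where
  toFun z := ![z.x1, z.x2, z.x3]
  map_add' x y := by funext i; fin_cases i <;> rfl
  map_smul' t x := by funext i; fin_cases i <;> rfl

theorem emb_apply (x : WW a b c) : emb x = ⟨0, 0, 0, x 0, x 1, x 2⟩ := rfl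

theorem off_apply (z : Alb a b c) : off z = ![z.x1, z.x2, z.x3] := rfl

theorem off_emb (x : WW a b c) : off (emb x) = x := by funext i; fin_cases i <;> rfl

/-- The diagonal idempotents. -/
def ee : Fin 3 → Alb a b c := ![e1, e2, e3]

/-- The idempotents of the ring of the scalars. -/
def dl (F : Type) [Field F] (i : Fin 3) : RR F := Pi.single i 1

theorem off_ee (i : Fin 3) : off (ee i : Alb a b c) = 0 := by
  funext j; fin_cases i <;> fin_cases j <;> rfl

theorem tf_emb_ee (x : WW a b c) (i : Fin 3) : tf (emb x) (ee i) = 0 := by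
  fin_cases i <;> simp [tf, emb_apply, ee, e1, e2, e3]

theorem split_eq (z : Alb a b c) : z = ∑ i, tf z (ee i) • ee i + emb (off z) := by
  ext1 <;> simp [Fin.sum_univ_three, tf, emb_apply, off_apply, ee, e1, e2, e3]

theorem sum_ee : ∑ i, (ee i : Alb a b c) = dia 1 1 1 := by
  ext1 <;> simp [Fin.sum_univ_three, ee, e1, e2, e3, dia]

theorem cross_ee (i : Fin 3) (x : WW a b c) : cross (ee i) (emb x) = -emb (dl F i • x) := by
  fin_cases i <;> ext1 <;> simp [cross, emb_apply, ee, e1, e2, e3, dl, Pi.smul_apply']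

theorem off_cross (x y : WW a b c) : off (cross (emb x) (emb y)) = bt x y := by
  funext i
  fin_cases i <;> simp [cross, emb_apply, off_apply, bt] <;> rfl

theorem sum_dl (u : RR F) (x : WW a b c) : ∑ i, u i • dl F i • x = u • x := by
  funext j
  fin_cases j <;> simp [Fin.sum_univ_three, dl, Pi.smul_apply']

theorem dl_smul (i : Fin 3) (x : WW a b c) : dl F i • x = Pi.single i (x i) := by
  funext j
  by_cases h : j = i
  · subst h; simp [dl, Pi.smul_apply']
  · simp [dl, Pi.smul_apply', h]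

theorem single_smul' (i : Fin 3) (s : F) (p : Oct a b c) : (Pi.single i (s • p) : WW a b c) =
    (fun _ => s : RR F) • (Pi.single i p : WW a b c) := by
  funext j
  by_cases h : j = i
  · subst h; simp [Pi.smul_apply']
  · simp [Pi.smul_apply', h]

theorem bt_bt (i : Fin 3) (p q : Oct a b c) :
    bt (bt (Pi.single i p) (Pi.single (i + 1) q)) (Pi.single i p) =
      Oct.norm p • (Pi.single (i + 1) q : WW a b c) := by
  have h : star (star (p * q) * p) = Oct.norm p • q := by
    rw [star_mul, star_star, star_mul_mul]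
  funext j
  fin_cases i <;> fin_cases j <;> simp [bt, h, Pi.single_apply, -star_mul]

/-- The map induced on the entries off the diagonal. -/
def fw (f : Alb a b c ≃ₗ[F] Alb a b c) : WW a b c →ₗ[F] WW a b c := off ∘ₗ f.toLinearMap ∘ₗ emb

theorem fw_apply (f : Alb a b c ≃ₗ[F] Alb a b c) (x : WW a b c) : fw f x = off (f (emb x)) := rfl

/-- The map preserves the norm and permutes the idempotents. -/
structure Pm (f : Alb a b c ≃ₗ[F] Alb a b c) (π : Equiv.Perm (Fin 3)) : Prop where
  inv : f ∈ Inv a b c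
  perm : ∀ i, f (ee i) = ee (π i)

theorem pm_of_Spin {f : Alb a b c ≃ₗ[F] Alb a b c} (h : f ∈ Spin a b c) : Pm f 1 :=
  ⟨h.1, fun i => by fin_cases i; exacts [h.2.1, h.2.2.1, h.2.2.2]⟩

theorem Pm.symm {f : Alb a b c ≃ₗ[F] Alb a b c} {π : Equiv.Perm (Fin 3)} (h : Pm f π) :
    Pm f⁻¹ π⁻¹ :=
  ⟨inv_mem h.inv, fun i => f.symm_apply_eq.2 (by rw [h.perm]; simp)⟩

theorem Pm.off {f : Alb a b c ≃ₗ[F] Alb a b c} {π : Equiv.Perm (Fin 3)} (h : Pm f π)
    (z : Alb a b c) : off (f z) = fw f (off z) := by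
  conv_lhs => rw [split_eq z]
  simp only [map_add, map_sum, map_smul, h.perm, off_ee, smul_zero, Finset.sum_const_zero, zero_add]
  rfl

theorem Pm.left {f : Alb a b c ≃ₗ[F] Alb a b c} {π : Equiv.Perm (Fin 3)} (h : Pm f π)
    (x : WW a b c) : fw f⁻¹ (fw f x) = x := by
  rw [fw_apply f, ← h.symm.off]
  exact (congrArg P011LC.off (f.symm_apply_apply _)).trans (off_emb x)

theorem Pm.right {f : Alb a b c ≃ₗ[F] Alb a b c} {π : Equiv.Perm (Fin 3)} (h : Pm f π)
    (x : WW a b c) : fw f (fw f⁻¹ x) = x := h.symm.left x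

theorem Pm.bij {f : Alb a b c ≃ₗ[F] Alb a b c} {π : Equiv.Perm (Fin 3)} (h : Pm f π) :
    Function.Bijective (fw f) :=
  Function.bijective_iff_has_inverse.2 ⟨fw f⁻¹, h.left, h.right⟩

/-- A related triple acts on the three entries. -/
def ofT (t : Fin 3 → OE a b c) : WW a b c ≃ₗ[RR F] WW a b c where
  toFun x i := t i (x i)
  invFun x i := (t i).symm (x i)
  map_add' x y := funext fun i => map_add (t i) _ _
  map_smul' u x := funext fun i => map_smul (t i) _ _
  left_inv x := funext fun i => (t i).symm_apply_apply _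
  right_inv x := funext fun i => (t i).apply_symm_apply _

theorem ofT_apply (t : Fin 3 → OE a b c) (x : WW a b c) (i : Fin 3) : ofT t x i = t i (x i) := rfl

theorem lin_apply {h : WW a b c → WW a b c} (hs : ∀ (u : RR F) x, h (u • x) = u • h x)
    (x : WW a b c) (i : Fin 3) : h (Pi.single i (x i)) i = h x i := by
  rw [← dl_smul, hs, dl_smul, Pi.single_eq_same]

theorem exists_ofT (g : WW a b c ≃ₗ[RR F] WW a b c) : ∃ t, g = ofT t := by
  have hs : ∀ (g : WW a b c ≃ₗ[RR F] WW a b c) i (s : F) u,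
      g (Pi.single i (s • u)) i = s • g (Pi.single i u) i := fun g i s u => by
    rw [single_smul', map_smul]
    rfl
  refine ⟨fun i =>
    { toFun := fun u => g (Pi.single i u) i
      invFun := fun u => g.symm (Pi.single i u) i
      map_add' := fun u v => by rw [Pi.single_add, map_add]; rfl
      map_smul' := hs g i
      left_inv := fun u => ?_
      right_inv := fun u => ?_ }, LinearEquiv.ext fun x => funext fun i =>
        (lin_apply (map_smul g) x i).symm⟩
  · simp only
    rw [lin_apply (map_smul g.symm), g.symm_apply_apply, Pi.single_eq_same]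
  · simp only
    rw [lin_apply (map_smul g), g.apply_symm_apply, Pi.single_eq_same]

/-- Induction over the elements of norm one. -/
theorem ind_one [NeZero (2 : F)] [IsAlgClosed F] {P : Oct a b c → Prop} (h1 : ∀ u, Oct.norm u = 1 → P u)
    (ha : ∀ x y, P x → P y → P (x + y)) (hs : ∀ (t : F) x, P x → P (t • x)) (x : Oct a b c) :
    P x := by
  rw [← sum_oc x]
  refine Finset.sum_induction _ P ha (zero_smul F (1 : Oct a b c) ▸ hs 0 1 (h1 1 Oct.norm_one))
    fun m _ => hs _ _ ?_
  obtain ⟨r, hr⟩ := IsAlgClosed.exists_eq_mul_self (Oct.norm (ob m : Oct a b c))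
  have h0 : r ≠ 0 := fun e => norm_ob (a := a) (b := b) (c := c) m (by rw [hr, e, mul_zero])
  have := hs r _ (h1 (r⁻¹ • ob m) (by rw [Oct.norm_smul, hr]; field_simp))
  rwa [smul_inv_smul₀ h0] at this

variable [NeZero (2 : F)]

theorem Pm.dual {f : Alb a b c ≃ₗ[F] Alb a b c} {π : Equiv.Perm (Fin 3)} (h : Pm f π) : Dl f f :=
  dl_self h.inv (by rw [← sum_ee, map_sum]; simp only [h.perm]; exact Equiv.sum_comp π ee)

theorem Pm.emb {f : Alb a b c ≃ₗ[F] Alb a b c} {π : Equiv.Perm (Fin 3)} (h : Pm f π)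
    (x : WW a b c) : f (emb x) = emb (fw f x) := by
  have : ∀ j, tf (f (P011LC.emb x)) (ee j) = 0 := fun j => by
    rw [← π.apply_symm_apply j, ← h.perm, h.dual, tf_emb_ee]
  conv_lhs => rw [split_eq (f (P011LC.emb x))]
  simp only [this, zero_smul, Finset.sum_const_zero, zero_add]
  rfl

theorem Pm.dl {f : Alb a b c ≃ₗ[F] Alb a b c} {π : Equiv.Perm (Fin 3)} (h : Pm f π) (i : Fin 3)
    (x : WW a b c) : fw f (P011LC.dl F i • x) = P011LC.dl F (π i) • fw f x := by
  have := h.dual.cross h.inv (ee i) (P011LC.emb x)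
  rw [h.perm, h.emb, cross_ee, cross_ee, map_neg, neg_inj, h.emb] at this
  rw [← off_emb (fw f _), ← this, off_emb]

theorem Pm.smul {f : Alb a b c ≃ₗ[F] Alb a b c} {π : Equiv.Perm (Fin 3)} (h : Pm f π) (u : RR F)
    (x : WW a b c) : fw f (u • x) = (fun i => u (π.symm i) : RR F) • fw f x := by
  rw [← sum_dl, ← sum_dl, map_sum,
    ← Equiv.sum_comp π fun i => u (π.symm i) • P011LC.dl F i • fw f x]
  simp only [map_smul, h.dl, Equiv.symm_apply_apply]

theorem Pm.bt {f : Alb a b c ≃ₗ[F] Alb a b c} {π : Equiv.Perm (Fin 3)} (h : Pm f π)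
    (x y : WW a b c) : fw f (bt x y) = bt (fw f x) (fw f y) := by
  rw [← off_cross, ← h.off, ← h.dual.cross h.inv, h.emb, h.emb, off_cross]

theorem ofT_mem {t : Fin 3 → OE a b c} (h : Rel (t 0) (t 1) (t 2)) :
    ofT t ∈ P011LH.Spin a b c := fun x y => by
  funext i
  fin_cases i
  · show t 0 (star (x 1 * y 2 + y 1 * x 2)) = star (t 1 (x 1) * t 2 (y 2) + t 1 (y 1) * t 2 (x 2))
    rw [star_add, star_add, map_add, h.m1, h.m1]
  · show t 1 (star (x 2 * y 0 + y 2 * x 0)) = star (t 2 (x 2) * t 0 (y 0) + t 2 (y 2) * t 0 (x 0))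
    rw [star_add, star_add, map_add, h.m2, h.m2]
  · show t 2 (star (x 0 * y 1 + y 0 * x 1)) = star (t 0 (x 0) * t 1 (y 1) + t 0 (y 0) * t 1 (x 1))
    rw [star_add, star_add, map_add, h.m3, h.m3]

omit [NeZero (2 : F)] in
theorem rel_of_mem {t : Fin 3 → OE a b c} (h : ofT t ∈ P011LH.Spin a b c) :
    Rel (t 0) (t 1) (t 2) := by
  have hs : ∀ i p, ofT t (Pi.single i p) = Pi.single i (t i p) := fun i p => funext fun j => by
    rw [ofT_apply]
    by_cases e : j = i
    · subst e; simp
    · simp [e]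
  have hi : ∀ i, Iso (t i) := fun i p => by
    have e := congrArg (ofT t) (bt_bt i p ((t (i + 1)).symm 1))
    rw [h, h, hs, hs, bt_bt] at e
    have e' := congrFun e (i + 1)
    rw [ofT_apply] at e'
    simp only [Pi.smul_apply, Pi.single_eq_same, map_smul, LinearEquiv.apply_symm_apply] at e'
    simpa using congrArg (fun z : Oct a b c => z.fst.re) e'
  refine rel_of_m3 (hi 0) (hi 1) (hi 2) fun x y => ?_
  have e := congrFun (h (Pi.single 0 x) (Pi.single 1 y)) 2
  rw [hs, hs, ofT_apply] at e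
  simpa [bt, Pi.single_apply, -star_mul] using e

theorem fw_dgm (t : Fin 3 → OE a b c) (x : WW a b c) : fw (dgm (t 0) (t 1) (t 2)) x = ofT t x := by
  funext i; fin_cases i <;> rfl

/-- The two descriptions of the spin group. -/
noncomputable def spW (a b c : Fˣ) : Spin a b c ≃* P011LH.Spin a b c :=
  MulEquiv.ofBijective (MonoidHom.mk' (fun f => ⟨
    { toFun := fw f.1
      invFun := fw f.1⁻¹
      map_add' := map_add _
      map_smul' := (pm_of_Spin f.2).smul
      left_inv := (pm_of_Spin f.2).left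
      right_inv := (pm_of_Spin f.2).right }, (pm_of_Spin f.2).bt⟩)
    fun f g => Subtype.ext (LinearEquiv.ext fun x => (pm_of_Spin f.2).off _) :
      Spin a b c →* P011LH.Spin a b c)
    ⟨(injective_iff_map_eq_one _).2 fun f h => Subtype.ext (LinearEquiv.ext fun z => by
      have e : ∀ x, fw f.1 x = x := fun x => congrArg (fun g : P011LH.Spin a b c => g.1 x) h
      show f.1 z = z
      conv_lhs => rw [split_eq z]
      simp only [map_add, map_sum, map_smul, (pm_of_Spin f.2).perm, (pm_of_Spin f.2).emb, e]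
      exact (split_eq z).symm),
    fun ⟨g, hg⟩ => by
      obtain ⟨t, rfl⟩ := exists_ofT g
      exact ⟨⟨_, dgm_mem (rel_of_mem hg)⟩, Subtype.ext (LinearEquiv.ext (fw_dgm t))⟩⟩

theorem spW_apply (f : Spin a b c) (x : WW a b c) : (spW a b c f).1 x = fw f.1 x := rfl

theorem exists_lm (i : Fin 3) (u : Oct a b c) (hu : Oct.norm u = 1) :
    ∃ g : P011LH.Spin a b c, ∀ x, g.1 x i = u * x i := by
  fin_cases i
  · exact ⟨⟨ofT ![_, _, _], ofT_mem (rel_u u hu)⟩, fun _ => rfl⟩
  · exact ⟨⟨ofT ![_, _, _], ofT_mem (rel_u u hu).cyc.cyc⟩, fun _ => rfl⟩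
  · exact ⟨⟨ofT ![_, _, _], ofT_mem (rel_u u hu).cyc⟩, fun _ => rfl⟩

theorem exists_rm (i : Fin 3) (u : Oct a b c) (hu : Oct.norm u = 1) :
    ∃ g : P011LH.Spin a b c, ∀ x, g.1 x i = x i * u := by
  fin_cases i
  · exact ⟨⟨ofT ![_, _, _], ofT_mem (rel_u u hu).cyc⟩, fun _ => rfl⟩
  · exact ⟨⟨ofT ![_, _, _], ofT_mem (rel_u u hu)⟩, fun _ => rfl⟩
  · exact ⟨⟨ofT ![_, _, _], ofT_mem (rel_u u hu).cyc.cyc⟩, fun _ => rfl⟩

omit [NeZero (2 : F)] in
theorem exists_sg (i : Fin 3) : ∃ g : P011LH.Spin a b c,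
    ∀ x, g.1 x = (fun j => if j = i then 1 else -1 : RR F) • x := by
  let u : (RR F)ˣ := ⟨fun j => if j = i then 1 else -1, fun j => if j = i then 1 else -1,
    funext fun j => by by_cases h : j = i <;> simp [h],
    funext fun j => by by_cases h : j = i <;> simp [h]⟩
  refine ⟨⟨LinearEquiv.smulOfUnit u, fun x y => funext fun j => ?_⟩, fun _ => rfl⟩
  show (if j = i then (1 : F) else -1) • bt x y j =
    star (((if j + 1 = i then (1 : F) else -1) • x (j + 1)) *
      ((if j + 2 = i then (1 : F) else -1) • y (j + 2)) +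
      ((if j + 1 = i then (1 : F) else -1) • y (j + 1)) *
      ((if j + 2 = i then (1 : F) else -1) • x (j + 2)))
  fin_cases i <;> fin_cases j <;> simp [bt, add_comm]

variable [IsAlgClosed F]

theorem scalar_of {t : Oct a b c → Oct a b c} (ha : ∀ x y, t (x + y) = t x + t y)
    (hs : ∀ (s : F) x, t (s • x) = s • t x)
    (hl : ∀ u, Oct.norm u = 1 → ∀ x, t (u * x) = u * t x)
    (hr : ∀ u, Oct.norm u = 1 → ∀ x, t (x * u) = t x * u) : ∃ e : F, ∀ x, t x = e • x := by
  have l : ∀ u x, t (u * x) = u * t x := ind_one hl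
    (fun u v h1 h2 x => by rw [add_mul, ha, h1, h2, add_mul])
    fun s u h x => by rw [smul_mul_oct, hs, h, smul_mul_oct]
  have r : ∀ u x, t (x * u) = t x * u := ind_one hr
    (fun u v h1 h2 x => by rw [mul_add, ha, h1, h2, mul_add])
    fun s u h x => by rw [mul_smul_oct, hs, h, mul_smul_oct]
  have h1 : ∀ x, t x = x * t 1 := fun x => by rw [← l, mul_one]
  have h2 : ∀ x, t x = t 1 * x := fun x => by rw [← r, one_mul]
  have hp := nucleus (p := t 1) fun x y => by rw [← h1, ← r, l, ← h2]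
  refine ⟨(t 1).fst.re, fun x => ?_⟩
  rw [h1 x]
  conv_lhs => rw [hp]
  rw [mul_smul_oct, mul_one]

/-- The lemma of Schur. -/
theorem schur {k : Type} [Field k] [Algebra k F] {a' b' c' : Fˣ} {σ : F ≃ₐ[k] F}
    {π π' : Equiv.Perm (Fin 3)} {l l' : (RR F)ˣ} {f f' : WW a b c → WW a' b' c'}
    (hf : Sm σ π l f) (hf' : Sm σ π' l' f')
    (hc : ∀ g : P011LH.Spin a b c, ∃ g' : WW a' b' c' → WW a' b' c',
      (∀ x, g' (f x) = f (g.1 x)) ∧ ∀ x, g' (f' x) = f' (g.1 x)) : π = π' ∧ Pr f f' := by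
  choose h hh using fun x => hf'.bij.2 (f x)
  have hi := hf'.bij.1
  have c1 : ∀ (g : P011LH.Spin a b c) x, h (g.1 x) = g.1 (h x) := fun g x => by
    obtain ⟨g', e1, e2⟩ := hc g
    exact hi (by rw [hh, ← e1, ← e2, hh])
  have c2 : ∀ x y, h (x + y) = h x + h y := fun x y => hi (by rw [hh, hf'.add, hh, hh, hf.add])
  have c3 : ∀ (u : RR F) x, h (u • x) = (fun j => u (π.symm (π' j)) : RR F) • h x := fun u x =>
    hi (by
      rw [hh, hf'.smul, hh, hf.smul]
      congr 1
      funext i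
      show σ (u (π.symm i)) = σ (u (π.symm (π' (π'.symm i))))
      rw [Equiv.apply_symm_apply])
  obtain ⟨x0, h0⟩ : ∃ x0, h x0 = fun _ => 1 := by
    obtain ⟨x0, e⟩ := hf.bij.2 (f' fun _ => 1)
    exact ⟨x0, hi (by rw [hh, e])⟩
  have c4 : ∀ i, π.symm (π' i) = i := fun i => by
    obtain ⟨g, hg⟩ := exists_sg (a := a) (b := b) (c := c) i
    have e := c1 g x0
    rw [hg, hg, c3, h0] at e
    have e' := congrArg (fun z : Oct a b c => z.fst.re) (congrFun e i)
    by_contra hn
    simp [Pi.smul_apply', hn] at e'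
    exact NeZero.ne (2 : F) (by linear_combination -e')
  have c5 : ∀ (u : RR F) x, h (u • x) = u • h x := fun u x => by simp only [c3, c4]
  refine ⟨Equiv.ext fun i => ((Equiv.symm_apply_eq _).1 (c4 i)).symm, ?_⟩
  have c6 : ∀ i, ∃ e : F, ∀ p, h (Pi.single i p) i = e • p := fun i => by
    refine scalar_of (t := fun p => h (Pi.single i p) i) (fun p q => ?_) (fun s p => ?_)
      (fun u hu p => ?_) fun u hu p => ?_
    · simp only [Pi.single_add, c2, Pi.add_apply]
    · simp only [single_smul', c5]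
      rfl
    · obtain ⟨g, hg⟩ := exists_lm i u hu
      have := lin_apply c5 (g.1 (Pi.single i p)) i
      rw [hg, Pi.single_eq_same, c1, hg] at this
      exact this
    · obtain ⟨g, hg⟩ := exists_rm i u hu
      have := lin_apply c5 (g.1 (Pi.single i p)) i
      rw [hg, Pi.single_eq_same, c1, hg] at this
      exact this
  choose e he using c6
  have c7 : ∀ x, h x = (e : RR F) • x := fun x => funext fun i => by
    rw [← lin_apply c5, he]; rfl
  have c8 : ∀ i, e i ≠ 0 := fun i hn => by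
    have := congrFun (c7 x0) i
    rw [h0, Pi.smul_apply', hn, zero_smul] at this
    simpa using congrArg (fun z : Oct a b c => z.fst.re) this
  let u : (RR F)ˣ := ⟨e, fun i => (e i)⁻¹, funext fun i => mul_inv_cancel₀ (c8 i),
    funext fun i => inv_mul_cancel₀ (c8 i)⟩
  exact ⟨Units.map (ac σ π' : RR F →* RR F) u, fun x => by rw [← hh, c7, hf'.smul]; rfl⟩

end Vale.Agent.P011LC
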